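import Vale.Agent.P139Z.Per.Cell

/-!
Block PER: the flow and the convolution on the cells.
-/

open Set Filter Topology MeasureTheory Complex
open scoped NNReal ENNReal ComplexConjugate

namespace Vale.Agent.P139Z.Per

open Vale.Agent.P139 Vale.Agent.P139.A Vale.Agent.P139.A.WA XW

variable {d k : ℕ}

theorem sq_smul (c : ℝ) (ξ : Fq d) : sq (c • ξ) = c ^ 2 * sq ξ := by
  simp only [sq, Pi.smul_apply, smul_eq_mul, mul_pow, Finset.mul_sum]

theorem continuous_sq : Continuous (sq : Fq d → ℝ) := by unfold sq; fun_prop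

theorem sq_nonneg' (ξ : Fq d) : 0 ≤ sq ξ := Finset.sum_nonneg fun _ _ => sq_nonneg _

theorem sq_le (ξ : Fq d) : sq ξ ≤ d * wt 2 ξ := by
  have h := Finset.sum_le_card_nsmul Finset.univ (fun i => ξ i ^ 2) (wt 2 ξ) fun i _ => by
    have h1 := norm_le_pi_norm ξ i
    rw [wt, ← sq_abs]
    gcongr
    exact h1.trans (by linarith)
  simpa [sq] using h

theorem cell_T (lam : ℝ) (Λ : ℂ) (σ t : ℝ) (F : XW d k) (φ : Fq d → ℂ) (n : Lat d) :
    ∫ ξ in cell (lam * Real.exp (-t / 2)) n, φ ξ * fn (T Λ σ t F) ξ = cexp (-Λ * t) *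
      ∫ η in cell lam n, φ (Real.exp (-t / 2) • η) *
        (cexp (-I * σ * ((1 - Real.exp (-t)) * sq η : ℝ)) * fn F η) := by
  have h1 : Real.exp (-t / 2) = (Real.exp (t / 2))⁻¹ := by rw [← Real.exp_neg, neg_div]
  have h2 := cell_dil (ρ := lam) (Real.exp_pos (t / 2)) n fun η => φ (Real.exp (-t / 2) • η) *
    (cexp (-I * σ * ((1 - Real.exp (-t)) * sq η : ℝ)) * fn F η)
  have h3 : (Real.exp (t / 2) : ℂ) ^ d ≠ 0 := pow_ne_zero _ (by exact_mod_cast (Real.exp_pos _).ne')
  rw [eq_inv_mul_iff_mul_eq₀ h3, ← h1] at h2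
  rw [← h2, ← mul_assoc, ← integral_const_mul]
  refine integral_congr_ae (ae_restrict_of_ae ?_)
  filter_upwards [fn_T Λ σ t F] with ξ h
  have h4 : (1 - Real.exp (-t)) * Real.exp (t / 2) ^ 2 = Real.exp t - 1 := by
    rw [← Real.exp_nat_mul, sub_mul, ← Real.exp_add]
    congr 1
    · rw [one_mul]; congr 1; push_cast; ring
    · rw [← Real.exp_zero]; congr 1; push_cast; ring
  rw [h, Tfun, smul_smul, h1, inv_mul_cancel₀ (Real.exp_pos _).ne', one_smul, sq_smul, ← mul_assoc,
    ← mul_assoc (1 - _), h4, ofReal_exp, ← exp_nat_mul, sub_eq_add_neg, exp_add, exp_add]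
  push_cast
  ring_nf

theorem deriv_cell (hk : 2 ≤ k) (F : XW d k) (A : Set (Fq d)) (s : ℝ) :
    HasDerivAt (fun t => ∫ η in A, cexp (-I * ((1 - Real.exp (-t)) * sq η : ℝ)) * fn F η)
      (-I * ∫ η in A, (Real.exp (-s) * sq η : ℝ) *
        (cexp (-I * ((1 - Real.exp (-s)) * sq η : ℝ)) * fn F η)) s := by
  have hc := continuous_sq (d := d)
  have hm : AEStronglyMeasurable (fn F) (volume.restrict A) := (integrable_fn F).1.restrict
  have hn : ∀ x : ℝ, ‖cexp (-I * x)‖ = 1 := fun x => by rw [norm_exp]; simp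
  rw [← integral_const_mul]
  refine (hasDerivAt_integral_of_dominated_loc_of_deriv_le (s := Ioi (s - 1))
    (F' := fun t η => -I * ((Real.exp (-t) * sq η : ℝ) *
      (cexp (-I * ((1 - Real.exp (-t)) * sq η : ℝ)) * fn F η)))
    (bound := fun η => Real.exp (1 - s) * d * (wt 2 η * ‖fn F η‖)) (Ioi_mem_nhds (by linarith))
    (Eventually.of_forall fun t => (Continuous.aestronglyMeasurable (by fun_prop)).mul hm) ?_
    (((Continuous.aestronglyMeasurable (by fun_prop)).mul
      ((Continuous.aestronglyMeasurable (by fun_prop)).mul hm)).const_mul _)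
    (Eventually.of_forall fun η t ht => ?_) ((integrable_wt_norm F hk).const_mul _).integrableOn
    (Eventually.of_forall fun η t _ => ?_)).2
  · refine (integrable_fn F).norm.integrableOn.mono'
      ((Continuous.aestronglyMeasurable (by fun_prop)).mul hm) (Eventually.of_forall fun η => ?_)
    rw [Pi.mul_apply, norm_mul, hn, one_mul]
  · have h1 := sq_nonneg' η
    rw [norm_mul, norm_mul, norm_mul, hn, norm_neg, norm_I, one_mul, one_mul, norm_real,
      Real.norm_of_nonneg (by positivity), ← mul_assoc, mul_assoc _ (d : ℝ)]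
    gcongr
    · linarith [mem_Ioi.1 ht]
    · exact sq_le η
  · have h1 : HasDerivAt (fun t : ℝ => (1 - Real.exp (-t)) * sq η) (Real.exp (-t) * sq η) t := by
      simpa using (((hasDerivAt_neg t).exp).const_sub 1).mul_const (sq η)
    refine ((((h1.ofReal_comp).const_mul (-I)).cexp).mul_const (fn F η)).congr_deriv ?_
    ring

/-- derivative of `L t (Z t)` -/
theorem deriv_apply {X : Type*} [NormedAddCommGroup X] [NormedSpace ℂ X] {L : ℝ → X →L[ℂ] ℂ}
    (hL : Continuous fun p : ℝ × X => L p.1 p.2) {Z : ℝ → X} {Z' : X} {S : Set ℝ} {s : ℝ}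
    (hZ : HasDerivWithinAt Z Z' S s) {a : ℂ} (ha : HasDerivAt (fun t => L t (Z s)) a s) :
    HasDerivWithinAt (fun t => L t (Z t)) (a + L s Z') S s := by
  have h1 := hasDerivWithinAt_iff_tendsto_slope.1 (ha.hasDerivWithinAt (s := S))
  have h2 := (hL.tendsto (s, Z')).comp ((tendsto_nhdsWithin_of_tendsto_nhds tendsto_id).prodMk_nhds
    (hasDerivWithinAt_iff_tendsto_slope.1 hZ))
  refine hasDerivWithinAt_iff_tendsto_slope.2 ((h1.add h2).congr fun t => ?_)
  simp only [slope, vsub_eq_sub, Function.comp, id, ContinuousLinearMap.map_smul_of_tower, map_sub,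
    ← smul_add]
  congr 1
  ring

/-- continuity of translations -/
theorem transl_cont (V : XW d k) {δ : ℝ} (hδ : 0 < δ) : ∃ r, 0 < r ∧ ∀ h : Fq d, ‖h‖ ≤ r →
    ∫ ξ, wt k ξ * ‖fn V (ξ + h) - fn V ξ‖ ≤ δ := by
  have hg := integrable_wt V (le_refl k)
  have hp : ∀ h : Fq d, MeasurePreserving
      ((ContinuousMap.curry ⟨fun p : Fq d × Fq d => p.2 + p.1, by fun_prop⟩) h) volume volume :=
    fun h => measurePreserving_add_right volume h
  have h1 := Continuous.compMeasurePreservingLp (f := fun _ : Fq d => hg.toL1 _) continuous_const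
    (ContinuousMap.curry ⟨fun p : Fq d × Fq d => p.2 + p.1, by fun_prop⟩).continuous hp
    ENNReal.one_ne_top
  have h2 : ∀ h : Fq d, ‖Lp.compMeasurePreserving _ (hp h) (hg.toL1 _) - hg.toL1 _‖ =
      ∫ ξ, ‖wt k (ξ + h) * fn V (ξ + h) - wt k ξ * fn V ξ‖ := fun h => by
    rw [L1.norm_eq_integral_norm]
    refine integral_congr_ae ?_
    filter_upwards [Lp.coeFn_sub (Lp.compMeasurePreserving _ (hp h) (hg.toL1 _)) (hg.toL1 _),
      Lp.coeFn_compMeasurePreserving (hg.toL1 _) (hp h), hg.coeFn_toL1,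
      (hp h).quasiMeasurePreserving.ae_eq_comp hg.coeFn_toL1] with ξ a1 a2 a3 a4
    rw [a1, Pi.sub_apply, a2, a3, a4]
    rfl
  have h3 : Continuous fun h : Fq d => (∫ ξ, ‖wt k (ξ + h) * fn V (ξ + h) - wt k ξ * fn V ξ‖) +
      (wt k h - 1) * ‖V‖ := by
    simp only [← h2]
    exact (h1.sub continuous_const).norm.add (((continuous_wt k).sub continuous_const).mul
      continuous_const)
  have h4 := (h3.tendsto 0).eventually (gt_mem_nhds (a := δ) (by simpa [wt] using hδ))
  obtain ⟨r, hr, h5⟩ := Metric.eventually_nhds_iff.1 h4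
  refine ⟨r / 2, by positivity, fun h hh => le_trans ?_ (h5 (y := h) (by
    rw [dist_zero_right]; linarith)).le⟩
  have i1 : Integrable fun ξ => (wt k (ξ + h) : ℂ) * fn V (ξ + h) - wt k ξ * fn V ξ :=
    (hg.comp_add_right h).sub hg
  have i2 := (integrable_wt_norm V (le_refl k)).comp_add_right h
  rw [XW.norm_eq, nrmX, ← integral_add_right_eq_self (fun ξ => wt k ξ * ‖fn V ξ‖) h,
    ← integral_const_mul, ← integral_add i1.norm (i2.const_mul _)]
  refine integral_mono_of_nonneg (Eventually.of_forall fun ξ =>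
    mul_nonneg (wt_pos _ _).le (norm_nonneg _)) (i1.norm.add (i2.const_mul _))
    (Eventually.of_forall fun ξ => ?_)
  have a1 : wt k ξ ≤ wt k h * wt k (ξ + h) := wt_le (by simp) k
  have a2 : wt k (ξ + h) ≤ wt k h * wt k ξ := wt_le (by simp) k
  have a3 := wt_pos k ξ
  have a4 := wt_pos k (ξ + h)
  have a5 := one_le_wt k h
  have a6 : |wt k ξ - wt k (ξ + h)| ≤ (wt k h - 1) * wt k (ξ + h) := by
    rw [abs_le]
    refine ⟨?_, by linarith⟩
    rcases le_total 2 (wt k h) with h6 | h6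
    · nlinarith
    · nlinarith [mul_le_mul_of_nonneg_left a2 (sub_nonneg.2 h6),
        mul_nonneg a3.le (sq_nonneg (wt k h - 1))]
  have e : (wt k ξ : ℂ) * (fn V (ξ + h) - fn V ξ) = (wt k (ξ + h) * fn V (ξ + h) - wt k ξ * fn V ξ) +
      ((wt k ξ - wt k (ξ + h) : ℝ) : ℂ) * fn V (ξ + h) := by push_cast; ring
  have a7 := norm_add_le ((wt k (ξ + h) : ℂ) * fn V (ξ + h) - wt k ξ * fn V ξ)
    (((wt k ξ - wt k (ξ + h) : ℝ) : ℂ) * fn V (ξ + h))
  rw [← e, norm_mul, norm_mul, norm_real, norm_real, Real.norm_of_nonneg a3.le,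
    Real.norm_eq_abs] at a7
  refine a7.trans (add_le_add le_rfl ?_)
  rw [← mul_assoc]
  gcongr

theorem integrable_skew (F V : XW d k) {τ : Fq d → Fq d} (hτ : Measurable τ) {r : ℝ}
    (hr : ∀ η, ‖η - τ η‖ ≤ r) {j : ℕ} (hj : j ≤ k) : Integrable
      (fun p : Fq d × Fq d => (wt j p.2 : ℂ) * (fn F p.1 * fn V (p.2 - τ p.1)))
      (volume.prod volume) := by
  have h1 : MeasurePreserving (fun p : Fq d × Fq d => (id p.1, p.2 - τ p.1)) (volume.prod volume)
      (volume.prod volume) :=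
    (MeasurePreserving.id volume).skew_product (g := fun η ξ => ξ - τ η)
      (measurable_snd.sub (hτ.comp measurable_fst))
      (Eventually.of_forall fun η => (measurePreserving_sub_right volume (τ η)).map_eq)
  have h2 := h1.integrable_comp_of_integrable
    ((integrable_wt_norm F hj).mul_prod (integrable_wt_norm V hj))
  have h3 := h1.integrable_comp_of_integrable ((integrable_fn F).mul_prod (integrable_fn V))
  refine (h2.const_mul ((1 + r) ^ j)).mono' (((continuous_ofReal.comp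
    ((continuous_wt j).comp continuous_snd)).aestronglyMeasurable).mul h3.1)
    (Eventually.of_forall fun p => ?_)
  have a1 : wt j p.2 ≤ wt j (τ p.1) * wt j (p.2 - τ p.1) := wt_le (by simp) j
  have a2 : wt j (τ p.1) ≤ (1 + r) ^ j * wt j p.1 := wt_le (by rw [norm_sub_rev]; exact hr _) j
  have a3 := wt_pos j (p.2 - τ p.1)
  rw [norm_mul, norm_mul, norm_real, Real.norm_of_nonneg (wt_pos _ _).le]
  calc _ ≤ (1 + r) ^ j * wt j p.1 * wt j (p.2 - τ p.1) * (‖fn F p.1‖ * ‖fn V (p.2 - τ p.1)‖) := by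
        gcongr
        exact a1.trans (by gcongr)
    _ = _ := by simp only [Function.comp, id]; ring

theorem measurable_lat_rd (ρ : ℝ) : Measurable fun η : Fq d => lat ρ (rd ρ η) :=
  (measurable_of_countable (lat ρ)).comp (measurable_rd ρ)

theorem integrable_skew' (F V : XW d k) {τ : Fq d → Fq d} (hτ : Measurable τ) {r : ℝ}
    (hr : ∀ η, ‖η - τ η‖ ≤ r) : Integrable
      (fun p : Fq d × Fq d => fn F p.1 * fn V (p.2 - τ p.1)) (volume.prod volume) := by
  simpa [wt] using integrable_skew F V hτ hr (Nat.zero_le k)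

theorem conv_cell {ρ : ℝ} (hρ : 0 < ρ) (F V : XW d k) (n : Lat d) :
    ∑' m, (∫ η in cell ρ m, fn F η) * ∫ ξ in cell ρ (n - m), fn V ξ =
      ∫ ξ in cell ρ n, ∫ η, fn F η * fn V (ξ - lat ρ (rd ρ η)) := by
  have h1 : Integrable (fun p : Fq d × Fq d => fn F p.1 * fn V (p.2 - lat ρ (rd ρ p.1)))
      (volume.prod (volume.restrict (cell ρ n))) := by
    have := (integrable_skew' F V (measurable_lat_rd ρ) (norm_sub_lat hρ)).integrableOn
      (s := univ ×ˢ cell ρ n)
    rwa [IntegrableOn, ← Measure.prod_restrict, Measure.restrict_univ] at this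
  rw [← integral_integral_swap h1, ← (hasSum_cell ρ h1.integral_prod_left).tsum_eq]
  refine tsum_congr fun m => ?_
  rw [← integral_mul_const]
  refine setIntegral_congr_fun (ms_cell ρ m) fun η hη => ?_
  simp only [mem_cell.1 hη]
  rw [integral_const_mul, cell_sub hρ]

theorem integrable_skew_one (V : XW d k) (h : Fq d) :
    Integrable fun ξ => (wt k ξ : ℂ) * fn V (ξ + h) := by
  refine (((integrable_wt_norm V le_rfl).comp_add_right h).const_mul (wt k h)).mono'
    ((continuous_ofReal.comp (continuous_wt k)).aestronglyMeasurable.mul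
      ((integrable_fn V).comp_add_right h).1) (Eventually.of_forall fun ξ => ?_)
  have a1 : wt k ξ ≤ wt k h * wt k (ξ + h) := wt_le (by simp) k
  rw [norm_mul, norm_real, Real.norm_of_nonneg (wt_pos _ _).le, ← mul_assoc]
  gcongr

theorem inner_le {δ : ℝ} (V : XW d k) (c : ℂ) (η τ : Fq d)
    (hδ : ∫ ξ, wt k ξ * ‖fn V (ξ + (η - τ)) - fn V ξ‖ ≤ δ) :
    ∫ ξ, ‖(wt k ξ : ℂ) * (c * fn V (ξ - τ)) - (wt k ξ : ℂ) * (c * fn V (ξ - η))‖ ≤
      δ * (wt k η * ‖c‖) := by
  have i1 : Integrable fun ξ => wt k ξ * ‖fn V (ξ + (η - τ)) - fn V ξ‖ := by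
    have := (integrable_skew_one V (η - τ)).sub (integrable_wt V le_rfl)
    simpa [← mul_sub, abs_of_pos (wt_pos k _)] using this.norm
  rw [← integral_add_right_eq_self _ η]
  refine le_trans ?_ ((mul_le_mul_of_nonneg_left hδ
    (mul_nonneg (wt_pos k η).le (norm_nonneg c))).trans (mul_comm _ _).le)
  rw [← integral_const_mul]
  refine integral_mono_of_nonneg (Eventually.of_forall fun _ => norm_nonneg _) (i1.const_mul _)
    (Eventually.of_forall fun ξ => ?_)
  have a1 : wt k (ξ + η) ≤ wt k η * wt k ξ := wt_le (by simp) k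
  beta_reduce
  rw [add_sub_cancel_right, add_sub_assoc, ← mul_sub, ← mul_sub, norm_mul, norm_mul, norm_real,
    Real.norm_of_nonneg (wt_pos _ _).le]
  calc _ ≤ wt k η * wt k ξ * (‖c‖ * ‖fn V (ξ + (η - τ)) - fn V ξ‖) := by gcongr
    _ = _ := by ring

theorem conv_err {ρ δ : ℝ} (hρ : 0 < ρ) (F V : XW d k)
    (hδ : ∀ h : Fq d, ‖h‖ ≤ ρ / 2 → ∫ ξ, wt k ξ * ‖fn V (ξ + h) - fn V ξ‖ ≤ δ) :
    ∑' n, (1 + ρ * ‖n‖) ^ k * ‖∫ ξ in cell ρ n, ((∫ η, fn F η * fn V (ξ - lat ρ (rd ρ η))) -
      ∫ η, fn F η * fn V (ξ - η))‖ ≤ (1 + ρ / 2) ^ k * δ * ‖F‖ := by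
  have hid : ∀ η : Fq d, ‖η - η‖ ≤ 0 := fun η => by simp
  have h1 := integrable_skew' F V (measurable_lat_rd ρ) (norm_sub_lat hρ)
  have h2 := integrable_skew' F V measurable_id' hid
  have h3 : Integrable (Function.uncurry fun η ξ : Fq d =>
      ‖(wt k ξ : ℂ) * (fn F η * fn V (ξ - lat ρ (rd ρ η))) - (wt k ξ : ℂ) * (fn F η * fn V (ξ - η))‖)
      (volume.prod volume) := by
    simpa only [Function.uncurry_def, Pi.sub_apply] using
      ((integrable_skew F V (measurable_lat_rd ρ) (norm_sub_lat hρ) le_rfl).sub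
        (integrable_skew F V measurable_id' hid le_rfl)).norm
  have h4 : Integrable fun ξ : Fq d => ∫ η, ‖(wt k ξ : ℂ) * (fn F η * fn V (ξ - lat ρ (rd ρ η))) -
      (wt k ξ : ℂ) * (fn F η * fn V (ξ - η))‖ := by
    simpa only [Function.uncurry_def] using h3.integral_prod_right
  refine (sum_cell_le ρ (om := fun n => (1 + ρ * ‖n‖) ^ k) (fun n => by positivity)
    (h4.const_mul ((1 + ρ / 2) ^ k)) ?_).2.trans ?_
  · filter_upwards [h1.prod_left_ae, h2.prod_left_ae] with ξ a1 a2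
    refine (mul_le_mul_of_nonneg_right (w_rd_le hρ k ξ) (norm_nonneg _)).trans ?_
    rw [mul_assoc]
    refine mul_le_mul_of_nonneg_left ?_ (by positivity)
    have a3 : ∀ z : ℂ, wt k ξ * ‖z‖ = ‖(wt k ξ : ℂ) * z‖ := fun z => by
      rw [norm_mul, norm_real, Real.norm_of_nonneg (wt_pos k ξ).le]
    rw [← integral_sub a1 a2, a3, ← integral_const_mul]
    refine (norm_integral_le_integral_norm _).trans (le_of_eq ?_)
    simp only [mul_sub]
  rw [integral_const_mul, mul_assoc, ← integral_integral_swap h3, XW.norm_eq, nrmX,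
    ← integral_const_mul δ]
  refine mul_le_mul_of_nonneg_left ?_ (by positivity)
  exact integral_mono_of_nonneg (Eventually.of_forall fun η => integral_nonneg fun _ =>
    norm_nonneg _) ((integrable_wt_norm F le_rfl).const_mul δ)
    (Eventually.of_forall fun η => inner_le V _ η _ (hδ _ (norm_sub_lat hρ η)))

end Vale.Agent.P139Z.Per
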