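import Vale.Agent.P139Z.XBasic

/-!
Block PER: geometry of the cells, sums over cells.
-/

open Set Filter Topology MeasureTheory Complex
open scoped NNReal ENNReal ComplexConjugate

namespace Vale.Agent.P139Z.Per

open Vale.Agent.P139 Vale.Agent.P139.A Vale.Agent.P139.A.WA XW

variable {d k : ℕ}

/-- the index of the cell -/
noncomputable def rd (ρ : ℝ) (ξ : Fq d) : Lat d := fun i => round (ξ i / ρ)

/-- the lattice point -/
def lat (ρ : ℝ) (n : Lat d) : Fq d := fun i => ρ * n i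

theorem mem_cell {ρ : ℝ} {n : Lat d} {ξ : Fq d} : ξ ∈ cell ρ n ↔ rd ρ ξ = n := funext_iff.symm

theorem measurable_rd (ρ : ℝ) : Measurable (rd ρ : Fq d → Lat d) :=
  measurable_pi_lambda _ fun i => by
    simp only [rd, round_eq]
    exact Int.measurable_floor.comp (by fun_prop)

theorem ms_cell (ρ : ℝ) (n : Lat d) : MeasurableSet (cell ρ n) := by
  have : cell ρ n = rd ρ ⁻¹' {n} := by ext ξ; exact mem_cell
  rw [this]
  exact measurable_rd ρ (measurableSet_singleton n)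

theorem disj_cell (ρ : ℝ) : Pairwise (Function.onFun Disjoint (cell ρ : Lat d → Set (Fq d))) :=
  fun _ _ h => disjoint_left.2 fun _ h1 h2 => h ((mem_cell.1 h1).symm.trans (mem_cell.1 h2))

theorem iUnion_cell (ρ : ℝ) : ⋃ n : Lat d, cell ρ n = univ :=
  eq_univ_of_forall fun ξ => mem_iUnion.2 ⟨rd ρ ξ, mem_cell.2 rfl⟩

theorem hasSum_cell {E : Type*} [NormedAddCommGroup E] [NormedSpace ℝ E] (ρ : ℝ) {g : Fq d → E}
    (hg : Integrable g) : HasSum (fun n => ∫ ξ in cell ρ n, g ξ) (∫ ξ, g ξ) := by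
  have := hasSum_integral_iUnion (ms_cell ρ) (disj_cell ρ) (f := g) (μ := volume) hg.integrableOn
  rwa [iUnion_cell, Measure.restrict_univ] at this

theorem cell_eq {ρ : ℝ} (hρ : 0 < ρ) (n : Lat d) : cell ρ n =
    Set.pi univ fun i => Ico (ρ * n i - ρ / 2) (ρ * n i + ρ / 2) := by
  ext ξ
  simp only [cell, mem_ofPred_eq, round_eq_iff, Set.mem_pi, mem_univ, true_imp_iff, mem_Ico,
    le_div_iff₀ hρ, div_lt_iff₀ hρ]
  refine forall_congr' fun i => and_congr ?_ ?_ <;> constructor <;> intro h <;> linarith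

theorem volume_cell {ρ : ℝ} (hρ : 0 < ρ) (n : Lat d) :
    volume (cell ρ n) = ENNReal.ofReal (ρ ^ d) := by
  rw [cell_eq hρ, Real.volume_pi_Ico, ENNReal.ofReal_pow hρ.le]
  simp

theorem real_cell {ρ : ℝ} (hρ : 0 < ρ) (n : Lat d) : volume.real (cell ρ n) = ρ ^ d := by
  rw [Measure.real, volume_cell hρ, ENNReal.toReal_ofReal (by positivity)]

theorem abs_sub_lat {ρ : ℝ} (hρ : 0 < ρ) (ξ : Fq d) (i : Fin d) :
    |ξ i - ρ * rd ρ ξ i| ≤ ρ / 2 := by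
  have h : ξ ∈ cell ρ (rd ρ ξ) := mem_cell.2 rfl
  rw [cell_eq hρ] at h
  have := h i (mem_univ i)
  rw [abs_le]
  constructor <;> linarith [this.1, this.2]

theorem norm_sub_lat {ρ : ℝ} (hρ : 0 < ρ) (ξ : Fq d) : ‖ξ - lat ρ (rd ρ ξ)‖ ≤ ρ / 2 :=
  (pi_norm_le_iff_of_nonneg (by positivity)).2 fun i => abs_sub_lat hρ ξ i

theorem norm_lat {ρ : ℝ} (hρ : 0 < ρ) (n : Lat d) : ‖lat ρ n‖ = ρ * ‖n‖ := by
  have h1 : lat ρ n = ρ • fun i => (n i : ℝ) := rfl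
  rw [h1, norm_smul, Real.norm_of_nonneg hρ.le, Pi.norm_def, Pi.norm_def]
  rfl

theorem wt_pos (j : ℕ) (ξ : Fq d) : 0 < wt j ξ := by rw [wt]; positivity

theorem one_le_wt (j : ℕ) (ξ : Fq d) : 1 ≤ wt j ξ := one_le_pow₀ (by linarith [norm_nonneg ξ])

theorem continuous_wt (j : ℕ) : Continuous (wt j : Fq d → ℝ) := by unfold wt; fun_prop

theorem wt_le {x y : Fq d} {r : ℝ} (h : ‖x - y‖ ≤ r) (j : ℕ) : wt j x ≤ (1 + r) ^ j * wt j y := by
  rw [wt, wt, ← mul_pow]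
  have h1 := norm_le_insert' x y
  have h2 := norm_nonneg y
  have h3 := (norm_nonneg _).trans h
  gcongr
  nlinarith

theorem wt_lat {ρ : ℝ} (hρ : 0 < ρ) (j : ℕ) (n : Lat d) : wt j (lat ρ n) = (1 + ρ * ‖n‖) ^ j := by
  rw [wt, norm_lat hρ]

theorem w_rd_le {ρ : ℝ} (hρ : 0 < ρ) (j : ℕ) (ξ : Fq d) :
    (1 + ρ * ‖rd ρ ξ‖) ^ j ≤ (1 + ρ / 2) ^ j * wt j ξ := by
  rw [← wt_lat hρ]
  exact wt_le (by rw [norm_sub_rev]; exact norm_sub_lat hρ ξ) j

theorem wt_le_rd {ρ : ℝ} (hρ : 0 < ρ) (j : ℕ) (ξ : Fq d) :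
    wt j ξ ≤ (1 + ρ / 2) ^ j * (1 + ρ * ‖rd ρ ξ‖) ^ j := by
  rw [← wt_lat hρ]
  exact wt_le (norm_sub_lat hρ ξ) j

theorem W_le {ρ : ℝ} (hρ : 0 < ρ) (j : ℕ) (n : Lat d) :
    W j n ≤ (1 + ρ⁻¹) ^ j * (1 + ρ * ‖n‖) ^ j := by
  rw [W, ← mul_pow]
  have h1 : ρ⁻¹ * (ρ * ‖n‖) = ‖n‖ := by field_simp
  have h2 : 0 ≤ ρ * ‖n‖ := by positivity
  have h3 : 0 ≤ ρ⁻¹ := by positivity
  gcongr
  nlinarith

theorem le_W {ρ : ℝ} (hρ : 0 < ρ) {j : ℕ} (hj : j ≤ k) (n : Lat d) :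
    (1 + ρ * ‖n‖) ^ j ≤ (1 + ρ) ^ j * W k n := by
  have h1 := norm_nonneg n
  calc (1 + ρ * ‖n‖) ^ j ≤ (1 + ρ) ^ j * (1 + ‖n‖) ^ j := by
        rw [← mul_pow]; gcongr; nlinarith
    _ ≤ _ := by rw [W]; gcongr; linarith

theorem summable_nrm {ρ : ℝ} (hρ : 0 < ρ) {j : ℕ} (hj : j ≤ k) (a : WA d k) :
    Summable fun n => (1 + ρ * ‖n‖) ^ j * ‖coef a n‖ :=
  Summable.of_nonneg_of_le (fun n => by positivity) (fun n => by
    rw [← mul_assoc]; gcongr; exact le_W hρ hj n) (a.summable.mul_left ((1 + ρ) ^ j))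

/-- weighted sums of cell integrals -/
theorem sum_cell_le (ρ : ℝ) {h : Fq d → ℂ} {om : Lat d → ℝ} (hom : ∀ n, 0 ≤ om n) {g : Fq d → ℝ}
    (hg : Integrable g) (hb : ∀ᵐ ξ, om (rd ρ ξ) * ‖h ξ‖ ≤ g ξ) :
    (Summable fun n => om n * ‖∫ ξ in cell ρ n, h ξ‖) ∧
      ∑' n, om n * ‖∫ ξ in cell ρ n, h ξ‖ ≤ ∫ ξ, g ξ := by
  have h1 : ∀ n, om n * ‖∫ ξ in cell ρ n, h ξ‖ ≤ ∫ ξ in cell ρ n, g ξ := fun n => by
    rw [← Real.norm_of_nonneg (hom n), ← norm_smul, ← integral_smul]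
    refine norm_integral_le_of_norm_le hg.integrableOn ?_
    filter_upwards [ae_restrict_mem (ms_cell ρ n), ae_restrict_of_ae hb] with ξ h2 h3
    rwa [norm_smul, Real.norm_of_nonneg (hom n), ← mem_cell.1 h2]
  have h2 := Summable.of_nonneg_of_le (fun n => mul_nonneg (hom n) (norm_nonneg _)) h1
    (hasSum_cell ρ hg).summable
  exact ⟨h2, (h2.tsum_le_tsum h1 (hasSum_cell ρ hg).summable).trans (hasSum_cell ρ hg).tsum_eq.le⟩

theorem integrable_wt_norm (F : XW d k) {j : ℕ} (hj : j ≤ k) :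
    Integrable fun ξ => wt j ξ * ‖fn F ξ‖ := by
  simpa [abs_of_pos (wt_pos j _)] using (integrable_wt F hj).norm

/-- multipliers -/
theorem sum_mul_le {ρ : ℝ} {φ : Fq d → ℂ} {om : Lat d → ℝ} (hom : ∀ n, 0 ≤ om n) {j : ℕ} (hj : j ≤ k)
    {C : ℝ} (hb : ∀ ξ, om (rd ρ ξ) * ‖φ ξ‖ ≤ C * wt j ξ) (F : XW d k) :
    (Summable fun n => om n * ‖∫ ξ in cell ρ n, φ ξ * fn F ξ‖) ∧
      ∑' n, om n * ‖∫ ξ in cell ρ n, φ ξ * fn F ξ‖ ≤ C * nrmX j F := by
  rw [nrmX, ← integral_const_mul]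
  refine sum_cell_le ρ hom ((integrable_wt_norm F hj).const_mul C) (Eventually.of_forall fun ξ => ?_)
  rw [norm_mul, ← mul_assoc, ← mul_assoc]
  exact mul_le_mul_of_nonneg_right (hb ξ) (norm_nonneg _)

theorem integrable_mul {φ : Fq d → ℂ} (hφ : AEStronglyMeasurable φ) {j : ℕ} (hj : j ≤ k) {C : ℝ}
    (hb : ∀ ξ, ‖φ ξ‖ ≤ C * wt j ξ) (F : XW d k) : Integrable fun ξ => φ ξ * fn F ξ :=
  ((integrable_wt_norm F hj).const_mul C).mono' (hφ.mul (integrable_fn F).1)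
    (Eventually.of_forall fun ξ => by
      rw [norm_mul, ← mul_assoc]; gcongr; exact hb ξ)

/-- the builder -/
theorem exists_cellOp {k' : ℕ} {ρ : ℝ} (hρ : 0 < ρ) {φ : Fq d → ℂ} (hφ : AEStronglyMeasurable φ)
    {C : ℝ} (hb : ∀ ξ, (1 + ρ * ‖rd ρ ξ‖) ^ k * ‖φ ξ‖ ≤ C * wt k' ξ) :
    ∃ L : XW d k' →L[ℂ] WA d k, ∀ F n, coef (L F) n = ∫ ξ in cell ρ n, φ ξ * fn F ξ := by
  have h1 : ∀ ξ, W k (rd ρ ξ) * ‖φ ξ‖ ≤ (1 + ρ⁻¹) ^ k * C * wt k' ξ := fun ξ => by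
    rw [mul_assoc]
    refine le_trans ?_ (mul_le_mul_of_nonneg_left (hb ξ) (by positivity))
    rw [← mul_assoc]
    gcongr
    exact W_le hρ k _
  have h2 := fun F : XW d k' => sum_mul_le (fun n => (W_pos n).le) le_rfl h1 F
  have h3 : ∀ F : XW d k', Integrable fun ξ => φ ξ * fn F ξ :=
    integrable_mul hφ le_rfl fun ξ => le_trans
      (le_mul_of_one_le_left (norm_nonneg _) (one_le_W _)) (h1 ξ)
  refine ⟨LinearMap.mkContinuous
    { toFun := fun F => WA.mk (fun n => ∫ ξ in cell ρ n, φ ξ * fn F ξ) (h2 F).1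
      map_add' := fun F G => ?_
      map_smul' := fun c F => ?_ } ((1 + ρ⁻¹) ^ k * C) fun F => ?_, fun F n => coef_mk _ (h2 F).1 n⟩
  · ext n
    rw [coef_add, coef_mk, coef_mk, coef_mk, ← integral_add (h3 F).integrableOn (h3 G).integrableOn]
    refine integral_congr_ae (ae_restrict_of_ae ?_)
    filter_upwards [fn_add F G] with ξ h
    rw [h, mul_add]
  · ext n
    rw [coef_smul, coef_mk, coef_mk, RingHom.id_apply, ← integral_const_mul]
    refine integral_congr_ae (ae_restrict_of_ae ?_)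
    filter_upwards [fn_smul c F] with ξ h
    rw [h]; ring
  · simp only [LinearMap.coe_mk, AddHom.coe_mk]
    rw [WA.norm_eq, XW.norm_eq]
    simp only [coef_mk]
    exact (h2 F).2

/-- piecewise constant functions -/
theorem pc {E : Type*} [NormedAddCommGroup E] [NormedSpace ℝ E] [CompleteSpace E] {ρ : ℝ}
    (hρ : 0 < ρ) {c : Lat d → E} (hc : Summable fun n => ‖c n‖) :
    Integrable (fun ξ => c (rd ρ ξ)) ∧ ∫ ξ, c (rd ρ ξ) = ρ ^ d • ∑' n, c n := by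
  have h1 : ∀ {E' : Type _} [NormedAddCommGroup E'] [NormedSpace ℝ E'] [CompleteSpace E']
      (c : Lat d → E') n, ∫ ξ in cell ρ n, c (rd ρ ξ) = ρ ^ d • c n := fun c n => by
    rw [setIntegral_congr_fun (ms_cell ρ n) (g := fun _ => c n) fun ξ h => by
      rw [mem_cell.1 h], setIntegral_const, real_cell hρ]
  have h2 : Integrable fun ξ => c (rd ρ ξ) := by
    rw [← integrableOn_univ, ← iUnion_cell ρ]
    refine integrableOn_iUnion_of_summable_integral_norm (fun n => ?_) ?_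
    · refine (integrableOn_congr_fun (g := fun _ => c n) (fun ξ h => by
        rw [mem_cell.1 h]) (ms_cell ρ n)).2 (integrableOn_const ?_)
      rw [volume_cell hρ]; exact ENNReal.ofReal_ne_top
    · have h3 : ∀ n, ∫ ξ in cell ρ n, ‖c (rd ρ ξ)‖ = ρ ^ d * ‖c n‖ := fun n => by
        rw [setIntegral_congr_fun (ms_cell ρ n) (g := fun _ => ‖c n‖) fun ξ h => by
          rw [mem_cell.1 h], setIntegral_const, real_cell hρ, smul_eq_mul]
      simp only [h3]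
      exact hc.mul_left _
  refine ⟨h2, ?_⟩
  rw [← (hasSum_cell ρ h2).tsum_eq, tsum_congr (h1 c), hc.of_norm.tsum_const_smul]

theorem setIntegral_rd {ρ : ℝ} (hρ : 0 < ρ) (c : Lat d → ℂ) (n : Lat d) :
    ∫ ξ in cell ρ n, c (rd ρ ξ) = (ρ : ℂ) ^ d * c n := by
  rw [setIntegral_congr_fun (ms_cell ρ n) (g := fun _ => c n) fun ξ h => by
    rw [mem_cell.1 h], setIntegral_const, real_cell hρ, Complex.real_smul, ofReal_pow]

/-- dilations -/
theorem cell_dil {ρ c : ℝ} (hc : 0 < c) (n : Lat d) (g : Fq d → ℂ) :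
    ∫ ξ in cell (ρ * c⁻¹) n, g (c • ξ) = ((c : ℂ) ^ d)⁻¹ * ∫ η in cell ρ n, g η := by
  rw [← integral_indicator (ms_cell _ n), ← integral_indicator (ms_cell _ n)]
  have h := Measure.integral_comp_smul_of_nonneg volume ((cell ρ n).indicator g) c (hR := hc.le)
  rw [Module.finrank_fin_fun, Complex.real_smul, ofReal_inv, ofReal_pow] at h
  rw [← h]
  refine integral_congr_ae (Eventually.of_forall fun ξ => ?_)
  have : c • ξ ∈ cell ρ n ↔ ξ ∈ cell (ρ * c⁻¹) n := by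
    refine forall_congr' fun i => ?_
    rw [Pi.smul_apply, smul_eq_mul, div_mul_eq_div_div, div_inv_eq_mul, mul_comm, mul_div_right_comm]
  beta_reduce
  by_cases h1 : ξ ∈ cell (ρ * c⁻¹) n
  · rw [indicator_of_mem h1, indicator_of_mem (this.2 h1)]
  · rw [indicator_of_notMem h1, indicator_of_notMem (mt this.1 h1)]

/-- reflection -/
theorem cell_neg {ρ : ℝ} (hρ : 0 < ρ) (n : Lat d) (g : Fq d → ℂ) :
    ∫ ξ in cell ρ n, g (-ξ) = ∫ ξ in cell ρ (-n), g ξ := by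
  have h1 : ∀ n : Lat d, cell ρ n =ᵐ[volume]
      Icc (fun i => ρ * n i - ρ / 2) (fun i => ρ * n i + ρ / 2) := fun n => by
    rw [cell_eq hρ]; exact Measure.univ_pi_Ico_ae_eq_Icc
  rw [setIntegral_congr_set (h1 n), setIntegral_congr_set (h1 (-n)),
    ← (Measure.measurePreserving_neg volume).setIntegral_preimage_emb
      (MeasurableEquiv.neg _).measurableEmbedding g]
  congr 2
  ext ξ
  simp only [mem_Icc, mem_preimage, Pi.le_def, Pi.neg_apply, Int.cast_neg]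
  exact ⟨fun h => ⟨fun i => by linarith [h.2 i], fun i => by linarith [h.1 i]⟩,
    fun h => ⟨fun i => by linarith [h.2 i], fun i => by linarith [h.1 i]⟩⟩

/-- translation -/
theorem cell_sub {ρ : ℝ} (hρ : 0 < ρ) (n m : Lat d) (g : Fq d → ℂ) :
    ∫ ξ in cell ρ n, g (ξ - lat ρ m) = ∫ ξ in cell ρ (n - m), g ξ := by
  rw [← (measurePreserving_sub_right volume (lat ρ m)).setIntegral_preimage_emb
    (MeasurableEquiv.subRight _).measurableEmbedding g]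
  congr 2
  ext ξ
  rw [mem_preimage]
  refine forall_congr' fun i => ?_
  rw [Pi.sub_apply, Pi.sub_apply, lat, sub_div, mul_div_cancel_left₀ _ hρ.ne', round_sub_intCast,
    sub_left_inj]

end Vale.Agent.P139Z.Per
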